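import Vale.Agent.P030.H361.Pieces
import Vale.Agent.P030.H792.OdFinal
import Vale.Agent.P030.H641.RedF

/-!
# P030, odd primes, design A: the odd part with the class gain for small `q`
-/

namespace Vale.Agent.P030.H361

open Vale.Agent.P030.T Vale.Agent.P030.H792 Vale.Agent.P030.H641 Vale.Agent.P030.H778

theorem cv {c0 : ℕ} {a b a' b' c d : ℝ} {α β : ℤ}
    (h : LocRange H579.parA c0 a b (fun q => (α : ℝ) + (β : ℝ) * q)) (ha : a ≤ a') (hb : b' ≤ b)
    (hc : (β : ℝ) = c) (hd : (α : ℝ) = d) : LocRange H579.parA c0 a' b' (fun q => c * q + d) :=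
  LocRange.cut h ha hb fun q _ _ => by rw [hc, hd]; linarith

/-- the pieces on `[25 / 8, 9)` -/
theorem lrSmall {c0 : ℕ} (hR : RedAllC c0) :
    LocP H579.parA c0 (25 / 8) [(16 / 5, -15, 115),
      (13 / 4, 5, 51),
      (23 / 7, 1, 64),
      (10 / 3, 1, 64),
      (101 / 30, 31, -36),
      (27 / 8, 1, 65),
      (17 / 5, -7, 92),
      (32 / 9, -12, 109),
      (25 / 7, 24, -19),
      (37 / 10, 3, 56),
      (15 / 4, -13, 115),
      (23 / 6, 3, 55),
      (27 / 7, 3, 55),
      (4, -11, 109),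
      (37 / 9, 23, -27),
      (25 / 6, 14, 10),
      (30 / 7, -4, 85),
      (9 / 2, 3, 55),
      (32 / 7, -3, 82),
      (5, 4, 50),
      (37 / 7, 0, 70),
      (16 / 3, -14, 144),
      (27 / 5, 10, 16),
      (17 / 3, 0, 70),
      (6, -3, 87),
      (37 / 6, 9, 15),
      (25 / 4, 3, 52),
      (32 / 5, -5, 102),
      (27 / 4, 5, 38),
      (37 / 5, 1, 65),
      (15 / 2, -4, 102),
      (8, 0, 72),
      (25 / 3, 4, 40),
      (9, 1, 65)] :=
  ⟨cv (pc1 hR) (by norm_num) (by norm_num) (by norm_num) (by norm_num),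
    cv (pc2 hR) (by norm_num) (by norm_num) (by norm_num) (by norm_num),
    cv (pc3 hR) (by norm_num) (by norm_num) (by norm_num) (by norm_num),
    cv (pc4 hR) (by norm_num) (by norm_num) (by norm_num) (by norm_num),
    cv (pc5 hR) (by norm_num) (by norm_num) (by norm_num) (by norm_num),
    lr0 c0 (by norm_num) (by norm_num),
    cv (pc7 hR) (by norm_num) (by norm_num) (by norm_num) (by norm_num),
    cv (pc8 hR) (by norm_num) (by norm_num) (by norm_num) (by norm_num),
    cv (pc9 hR) (by norm_num) (by norm_num) (by norm_num) (by norm_num),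
    cv (pc10 hR) (by norm_num) (by norm_num) (by norm_num) (by norm_num),
    cv (pc11 hR) (by norm_num) (by norm_num) (by norm_num) (by norm_num),
    cv (pc12 hR) (by norm_num) (by norm_num) (by norm_num) (by norm_num),
    cv (pc13 hR) (by norm_num) (by norm_num) (by norm_num) (by norm_num),
    cv (pc14 hR) (by norm_num) (by norm_num) (by norm_num) (by norm_num),
    cv (pc15 hR) (by norm_num) (by norm_num) (by norm_num) (by norm_num),
    cv (pc16 hR) (by norm_num) (by norm_num) (by norm_num) (by norm_num),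
    cv (pc17 hR) (by norm_num) (by norm_num) (by norm_num) (by norm_num),
    cv (pc18 hR) (by norm_num) (by norm_num) (by norm_num) (by norm_num),
    cv (pc19 hR) (by norm_num) (by norm_num) (by norm_num) (by norm_num),
    cv (pc20 hR) (by norm_num) (by norm_num) (by norm_num) (by norm_num),
    cv (pc21 hR) (by norm_num) (by norm_num) (by norm_num) (by norm_num),
    cv (pc22 hR) (by norm_num) (by norm_num) (by norm_num) (by norm_num),
    cv (pc23 hR) (by norm_num) (by norm_num) (by norm_num) (by norm_num),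
    cv (pc24 hR) (by norm_num) (by norm_num) (by norm_num) (by norm_num),
    cv (pc25 hR) (by norm_num) (by norm_num) (by norm_num) (by norm_num),
    cv (pc26 hR) (by norm_num) (by norm_num) (by norm_num) (by norm_num),
    cv (pc27 hR) (by norm_num) (by norm_num) (by norm_num) (by norm_num),
    cv (pc28 hR) (by norm_num) (by norm_num) (by norm_num) (by norm_num),
    cv (pc29 hR) (by norm_num) (by norm_num) (by norm_num) (by norm_num),
    lr0 c0 (by norm_num) (by norm_num),
    cv (pc31 hR) (by norm_num) (by norm_num) (by norm_num) (by norm_num),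
    cv (pc32 hR) (by norm_num) (by norm_num) (by norm_num) (by norm_num),
    cv (pc33 hR) (by norm_num) (by norm_num) (by norm_num) (by norm_num),
    lr0 c0 (by norm_num) (by norm_num), trivial⟩

/-- **the odd part of design A with small `q`** -/
theorem stOD_small (c0 : ℕ) : StOD H579.parA c0 (4859031 / 2800) := by
  obtain ⟨k0, k1, k2, k3, k4, k5, k6, k7, k8, k9, k10, k11, k12, k13, k14, k15, k16, k17, k18, k19, k20, k21, k22, k23, k24, k25, k26, k27, k28, k29, k30, k31, k32, k33, -⟩ := lrSmall (redFull c0)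
  obtain ⟨m1, m2, m3, -⟩ := lrDip (locRange_dipF c0)
  obtain ⟨n1, n2, n3, -⟩ := lrMid (H792.midIn c0)
  refine stOD_pw H579.parA c0 (b0 := 25 / 8) (c := 1) (d := 65) (L := [(16 / 5, -15, 115),
    (13 / 4, 5, 51),
    (23 / 7, 1, 64),
    (10 / 3, 1, 64),
    (101 / 30, 31, -36),
    (27 / 8, 1, 65),
    (17 / 5, -7, 92),
    (32 / 9, -12, 109),
    (25 / 7, 24, -19),
    (37 / 10, 3, 56),
    (15 / 4, -13, 115),
    (23 / 6, 3, 55),
    (27 / 7, 3, 55),
    (4, -11, 109),
    (37 / 9, 23, -27),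
    (25 / 6, 14, 10),
    (30 / 7, -4, 85),
    (9 / 2, 3, 55),
    (32 / 7, -3, 82),
    (5, 4, 50),
    (37 / 7, 0, 70),
    (16 / 3, -14, 144),
    (27 / 5, 10, 16),
    (17 / 3, 0, 70),
    (6, -3, 87),
    (37 / 6, 9, 15),
    (25 / 4, 3, 52),
    (32 / 5, -5, 102),
    (27 / 4, 5, 38),
    (37 / 5, 1, 65),
    (15 / 2, -4, 102),
    (8, 0, 72),
    (25 / 3, 4, 40),
    (9, 1, 65),
    (10, -2, 92), (32 / 3, -1, 82), (11, 5, 18), (25 / 2, 3, 40), (13, 1, 65), (15, -5, 143), (16, -1, 83), (86 / 5, 5, -13), (25, -5, 159), (28, -6, 184), (30, -5, 156), (32, -3, 96)]) (by norm_num)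
    (loc0 c0 (by norm_num)) (by norm_num [pwS])
    ⟨k0, k1, k2, k3, k4, k5, k6, k7, k8, k9, k10, k11, k12, k13, k14, k15, k16, k17, k18, k19, k20, k21, k22, k23, k24, k25, k26, k27, k28, k29, k30, k31, k32, k33, m1, m2, m3, LocRange.cut (H611.locRange_kap (H792.kapAll c0)) (by norm_num) le_rfl
      fun q _ _ => by linarith,
      lr0 c0 (by norm_num) (by norm_num), n1, n2, n3, lrI c0 (by norm_num)⟩
    (fun g => ht_le32 g) (by norm_num [pwI])

end Vale.Agent.P030.H361
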